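import Mathlib

set_option autoImplicit false

/-!
# P181, NR second step, block [P3]: the inequality
-/

open Finset

namespace Vale.Agent.P181.NR.H964

lemma logmul (x y : ℕ) (hx : 0 < x) (hy : 0 < y) :
    Real.log ((x * y : ℕ) : ℝ) = Real.log x + Real.log y := by
  have hx' : (x : ℝ) ≠ 0 := by exact_mod_cast hx.ne'
  have hy' : (y : ℝ) ≠ 0 := by exact_mod_cast hy.ne'
  rw [Nat.cast_mul, Real.log_mul hx' hy']

lemma logpow (x n : ℕ) : Real.log ((x ^ n : ℕ) : ℝ) = n * Real.log x := by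
  rw [Nat.cast_pow, Real.log_pow]

lemma logprod {k : ℕ} (f : Fin k → ℕ) (hf : ∀ i, 0 < f i) :
    Real.log ((∏ i, f i : ℕ) : ℝ) = ∑ i, Real.log (f i) := by
  rw [Nat.cast_prod]
  refine Real.log_prod (fun i _ => ?_)
  have := hf i
  exact_mod_cast this.ne'

lemma log_choose_le (p N : ℕ) (hp : 0 < p) :
    Real.log ((p + N).choose p : ℝ) ≤ p * (1 + Real.log (1 + N / p)) := by
  have hp' : (0 : ℝ) < p := by exact_mod_cast hp
  have hN' : (0 : ℝ) ≤ (N : ℝ) / p := by positivity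
  have h1 : ((p + N).choose p : ℝ) ≤ ((p + N : ℕ) : ℝ) ^ p / (p.factorial : ℝ) :=
    Nat.choose_le_pow_div p (p + N)
  have h2 : (p : ℝ) ^ p / (p.factorial : ℝ) ≤ Real.exp p :=
    Real.pow_div_factorial_le_exp _ hp'.le _
  have h3 : ((p + N : ℕ) : ℝ) ^ p / (p.factorial : ℝ) =
      (1 + (N : ℝ) / p) ^ p * ((p : ℝ) ^ p / (p.factorial : ℝ)) := by
    rw [← mul_div_assoc, ← mul_pow]
    congr 2
    push_cast
    field_simp
  have h4 : ((p + N).choose p : ℝ) ≤ (1 + (N : ℝ) / p) ^ p * Real.exp p := by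
    rw [h3] at h1
    exact h1.trans (mul_le_mul_of_nonneg_left h2 (by positivity))
  have h5 : (0 : ℝ) < ((p + N).choose p : ℝ) := by
    exact_mod_cast Nat.choose_pos (by omega)
  refine (Real.log_le_log h5 h4).trans (le_of_eq ?_)
  rw [Real.log_mul (by positivity) (by positivity), Real.log_pow, Real.log_exp]
  ring

lemma log_floor (N Q : ℕ) (hN : 0 < N) (hQ : 0 < Q) :
    Real.log N - Real.log Q - 1 ≤ Real.log ((max 1 (N / Q) : ℕ) : ℝ) := by
  obtain ⟨x, hx⟩ : ∃ x, x = max 1 (N / Q) := ⟨_, rfl⟩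
  have h1 : N < Q * (N / Q + 1) := Nat.lt_mul_div_succ N hQ
  have h2 : N / Q + 1 ≤ 2 * x := by
    rw [hx]
    have e1 : 1 ≤ max 1 (N / Q) := le_max_left _ _
    have e2 : N / Q ≤ max 1 (N / Q) := le_max_right _ _
    omega
  have hx1 : 1 ≤ x := by
    rw [hx]
    exact le_max_left _ _
  have h3 : N ≤ Q * (2 * x) := h1.le.trans (Nat.mul_le_mul le_rfl h2)
  rw [← hx]
  have hN' : (0 : ℝ) < N := by exact_mod_cast hN
  have hQ' : (0 : ℝ) < Q := by exact_mod_cast hQ
  have hx' : (0 : ℝ) < x := by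
    have : 0 < x := by omega
    exact_mod_cast this
  have h4 : (N : ℝ) ≤ Q * (2 * x) := by exact_mod_cast h3
  have h5 := Real.log_le_log hN' h4
  rw [Real.log_mul hQ'.ne' (by positivity), Real.log_mul (by norm_num) hx'.ne'] at h5
  have h6 : Real.log 2 < 1 := by
    have := Real.log_two_lt_d9
    linarith
  linarith

lemma log_one_add {x : ℝ} (hx : 0 < x) : Real.log (1 + x) ≤ 1 + max 0 (Real.log x) := by
  have h6 : Real.log 2 < 1 := by
    have := Real.log_two_lt_d9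
    linarith
  rcases le_total x 1 with h | h
  · have h1 : Real.log (1 + x) ≤ Real.log 2 := Real.log_le_log (by linarith) (by linarith)
    have h2 : (0 : ℝ) ≤ max 0 (Real.log x) := le_max_left _ _
    linarith
  · have h1 : Real.log (1 + x) ≤ Real.log (2 * x) := Real.log_le_log (by linarith) (by linarith)
    rw [Real.log_mul (by norm_num) (by linarith)] at h1
    have h2 : Real.log x ≤ max 0 (Real.log x) := le_max_right _ _
    linarith

/-- the account -/
lemma account {a b k L c s C y M G0 G1 G2 S H2 T f1 f2 f3 la nB : ℝ} (ha0 : 0 < a) (hab' : a ≤ b)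
    (hb0 : 0 < b) (hk : 0 ≤ k) (hL : 1 ≤ L) (hc : 0 ≤ c) (hs : 0 ≤ s) (hM0 : 0 ≤ M) (hMb : M ≤ b)
    (h7 : C * b * L ≤ (b - a) * y) (hC : 2 * (11 + 3 * s + 3 * c + (k + 3) * (s + 7)) ≤ C)
    (hrow2 : H2 ≤ M * G2 + (2 * a + b * (s * L + 1) - (b - a) / 2 * y))
    (hrow1 : la - (c + s) * L - 1 ≤ G1) (hrow0 : la - (c + s) * L - 1 ≤ G0)
    (hf1 : f1 ≤ 2 * b) (hf2 : f2 ≤ nB * la + b * (c * L)) (hf3 : f3 ≤ nB * la + 2 * b)
    (hsum : T ≤ M * S + k * (a * (s * L + 3)))
    (hg3 : nB * la - (2 * (k + 3) + 1) * b ≤ M * la) :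
    f1 + (H2 + T) + (f2 + f3) ≤ M * (G0 + G1 + (G2 + S)) := by
  have hsL : 0 ≤ s * L := by positivity
  have hk1 : k * (a * (s * L + 3)) ≤ k * (b * (s * L + 3)) :=
    mul_le_mul_of_nonneg_left (mul_le_mul_of_nonneg_right hab' (by linarith)) hk
  have hg : M * (2 * (la - (c + s) * L - 1)) ≤ M * (G0 + G1) :=
    mul_le_mul_of_nonneg_left (by linarith) hM0
  have hg2 : M * ((c + s) * L + 1) ≤ b * ((c + s) * L + 1) :=
    mul_le_mul_of_nonneg_right hMb (by positivity)
  have hbL : b ≤ b * L := le_mul_of_one_le_right hb0.le hL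
  have hkb : k * b ≤ k * (b * L) := mul_le_mul_of_nonneg_left hbL hk
  have hCC : 2 * (11 + 3 * s + 3 * c + (k + 3) * (s + 7)) * (b * L) ≤ C * (b * L) :=
    mul_le_mul_of_nonneg_right hC (by positivity)
  have hfin : C * (b * L) ≤ (b - a) * y := by linarith
  have e1 : M * (G0 + G1 + (G2 + S)) = M * (G0 + G1) + M * G2 + M * S := by ring
  have e2 : M * (2 * (la - (c + s) * L - 1)) = 2 * (M * la) - 2 * (M * ((c + s) * L + 1)) := by
    ring
  have e3 : 2 * (11 + 3 * s + 3 * c + (k + 3) * (s + 7)) * (b * L) =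
      64 * (b * L) + 12 * (s * (b * L)) + 6 * (c * (b * L)) + 2 * (k * (s * (b * L))) +
        14 * (k * (b * L)) := by ring
  have e4 : b * ((c + s) * L + 1) = c * (b * L) + s * (b * L) + b := by ring
  have e5 : b * (s * L + 1) = s * (b * L) + b := by ring
  have e6 : k * (b * (s * L + 3)) = k * (s * (b * L)) + 3 * (k * b) := by ring
  have e7 : b * (c * L) = c * (b * L) := by ring
  have e8 : (2 * (k + 3) + 1) * b = 2 * (k * b) + 7 * b := by ring
  have p1 : 0 ≤ s * (b * L) := by positivity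
  have p2 : 0 ≤ c * (b * L) := by positivity
  have p3 : 0 ≤ k * (s * (b * L)) := by positivity
  have p4 : 0 ≤ k * (b * L) := by positivity
  rw [e1]
  rw [e2] at hg
  rw [e3] at hCC
  rw [e4] at hg2
  rw [e5] at hrow2
  rw [e6] at hk1
  rw [e7] at hf2
  rw [e8] at hg3
  linarith

lemma row_le {a M G H x s L : ℝ} (ha0 : 0 < a) (hMa : a ≤ M) (hG0 : 0 ≤ G)
    (hsL : 0 ≤ s * L) (hx : 0 ≤ x) (hG1 : 0 < x → Real.log x - s * L - 1 ≤ G)
    (hH1 : H ≤ a * (1 + Real.log (1 + x))) : H ≤ M * G + a * (s * L + 3) := by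
  have hM0 : 0 ≤ M := by linarith
  have e3 : 0 ≤ M * G := mul_nonneg hM0 hG0
  have e9 : 0 ≤ a * (s * L) := mul_nonneg ha0.le hsL
  have e10 : a * (s * L + 3) = a * (s * L) + 3 * a := by ring
  rw [e10]
  rcases hx.eq_or_lt with h0 | h0
  · rw [← h0, add_zero, Real.log_one] at hH1
    linarith
  · have e4 := log_one_add h0
    have e5 : H ≤ a * (2 + max 0 (Real.log x)) :=
      hH1.trans (mul_le_mul_of_nonneg_left (by linarith) ha0.le)
    rcases le_total (Real.log x) 0 with h | h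
    · rw [max_eq_left h] at e5
      linarith
    · rw [max_eq_right h] at e5
      have e6 := hG1 h0
      have e7 : a * G ≤ M * G := mul_le_mul_of_nonneg_right hMa hG0
      have e8 : a * (Real.log x - s * L - 1) ≤ a * G := mul_le_mul_of_nonneg_left e6 ha0.le
      have e11 : a * (Real.log x - s * L - 1) = a * Real.log x - a * (s * L) - a := by ring
      have e12 : a * (2 + Real.log x) = 2 * a + a * Real.log x := by ring
      linarith

lemma row2_le {a b M G H y s L : ℝ} (ha0 : 0 < a) (hab : a ≤ b) (hMa : a + (b - a) / 2 ≤ M)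
    (hMb : M ≤ b) (hsL : 0 ≤ s * L) (hy0 : 0 < y) (hG1 : y - s * L - 1 ≤ G)
    (hH1 : H ≤ a * (2 + y)) : H ≤ M * G + (2 * a + b * (s * L + 1) - (b - a) / 2 * y) := by
  have hM0 : 0 ≤ M := by linarith
  have e8 : M * (y - s * L - 1) ≤ M * G := mul_le_mul_of_nonneg_left hG1 hM0
  have e9 : M * (s * L + 1) ≤ b * (s * L + 1) := mul_le_mul_of_nonneg_right hMb (by linarith)
  have e10 : (b - a) / 2 * y ≤ (M - a) * y :=
    mul_le_mul_of_nonneg_right (by linarith) hy0.le
  have e11 : M * (y - s * L - 1) = M * y - M * (s * L + 1) := by ring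
  have e12 : (M - a) * y = M * y - a * y := by ring
  have e13 : a * (2 + y) = 2 * a + a * y := by ring
  linarith

lemma fac_le {b n B : ℕ} {la c L : ℝ} (h2 : n * B ≤ b) (hc : 0 ≤ c * L)
    (h1 : Real.log b ≤ la + c * L) :
    Real.log (((n * B).factorial : ℕ) : ℝ) ≤ n * B * la + b * (c * L) := by
  have hnB : (n : ℝ) * B ≤ b := by exact_mod_cast h2
  have e1 : (n * B).factorial ≤ b ^ (n * B) :=
    (Nat.factorial_le_pow _).trans (Nat.pow_le_pow_left h2 _)
  have e2 : (((n * B).factorial : ℕ) : ℝ) ≤ (b : ℝ) ^ (n * B) := by exact_mod_cast e1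
  have e3 : (0 : ℝ) < ((n * B).factorial : ℕ) := by exact_mod_cast Nat.factorial_pos _
  have e4 := Real.log_le_log e3 e2
  rw [Real.log_pow, Nat.cast_mul] at e4
  have e5 : (n : ℝ) * B * Real.log b ≤ n * B * (la + c * L) :=
    mul_le_mul_of_nonneg_left h1 (by positivity)
  have e6 : (n : ℝ) * B * (c * L) ≤ b * (c * L) := mul_le_mul_of_nonneg_right hnB hc
  have e7 : (n : ℝ) * B * (la + c * L) = n * B * la + n * B * (c * L) := by ring
  linarith

lemma ch_le {a b n B : ℕ} (ha' : (1 : ℝ) ≤ a) (hn0 : 0 < n) (h2 : n * B ≤ b) :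
    (B : ℝ) * Real.log (((n + n * a).choose n : ℕ) : ℝ) ≤ n * B * Real.log a + 2 * b := by
  have hnB : (n : ℝ) * B ≤ b := by exact_mod_cast h2
  have ha0 : (0 : ℝ) < a := by linarith
  have hn0' : (0 : ℝ) < n := by exact_mod_cast hn0
  have e1 := log_choose_le n (n * a) hn0
  have e2 : (1 : ℝ) + ((n * a : ℕ) : ℝ) / n = 1 + a := by
    rw [Nat.cast_mul]
    field_simp
  rw [e2] at e1
  have e3 := log_one_add (x := (a : ℝ)) ha0
  rw [max_eq_right (Real.log_nonneg ha')] at e3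
  have e4 : (n : ℝ) * (1 + Real.log (1 + a)) ≤ n * (2 + Real.log a) :=
    mul_le_mul_of_nonneg_left (by linarith) hn0'.le
  have e5 : (B : ℝ) * Real.log (((n + n * a).choose n : ℕ) : ℝ) ≤ B * (n * (2 + Real.log a)) :=
    mul_le_mul_of_nonneg_left (e1.trans e4) (Nat.cast_nonneg _)
  have e6 : (B : ℝ) * (n * (2 + Real.log a)) = n * B * Real.log a + 2 * (n * B) := by ring
  linarith

/-- the inequality -/
theorem core_num (k a b n B Q : ℕ) (lam : Fin (k + 3) → ℕ) (hlam : Antitone lam)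
    (L c s C : ℝ) (hL : 1 ≤ L) (hc : 0 ≤ c) (hs : 0 ≤ s) (ha : 1 ≤ a) (hab : a ≤ b)
    (hn : 2 * (k + 3) + 1 ≤ n) (hB : 0 < B) (hQ : 0 < Q)
    (h1 : Real.log b ≤ Real.log a + c * L) (h2 : n * B ≤ b) (h3 : Real.log a ≤ n)
    (h4 : Real.log ((Q * B : ℕ) : ℝ) ≤ Real.log a + s * L)
    (h5 : 2 * Real.log a - c * L ≤ Real.log (lam 1)) (h5' : 0 < lam 1)
    (h6 : (a : ℝ) + ((b : ℝ) - a) / 2 ≤ ((n : ℝ) - (2 * (k + 3) + 1)) * B)
    (h7 : C * b * L ≤ ((b : ℝ) - a) * Real.log ((lam 2 : ℝ) / a))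
    (hC : 2 * (11 + 3 * s + 3 * c + (k + 3) * (s + 7)) ≤ C) :
    (a + b).choose a * (∏ i : Fin (k + 1), (a + lam i.succ.succ).choose (lam i.succ.succ)) *
      ((n * B).factorial * (n + n * a).choose n ^ B) ≤
      (∏ i : Fin (k + 3), max 1 (lam i / (Q * B)) ^ (n - 2 * (k + 3) - 1)) ^ B := by
  have ha' : (1 : ℝ) ≤ a := by exact_mod_cast ha
  have ha0 : (0 : ℝ) < a := by linarith
  have hab' : (a : ℝ) ≤ b := by exact_mod_cast hab
  have hb0 : (0 : ℝ) < b := by linarith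
  have hla : 0 ≤ Real.log a := Real.log_nonneg ha'
  have hB0 : (0 : ℝ) < B := by exact_mod_cast hB
  have hn0 : 0 < n := by omega
  have hn0' : (0 : ℝ) < n := by exact_mod_cast hn0
  have hnB : (n : ℝ) * B ≤ b := by exact_mod_cast h2
  have hC0 : 0 < C := by
    have : 0 ≤ ((k : ℝ) + 3) * (s + 7) := by positivity
    linarith
  have hlog2 : Real.log 2 < 1 := by
    have := Real.log_two_lt_d9
    linarith
  obtain ⟨y, hy⟩ : ∃ y, y = Real.log ((lam 2 : ℝ) / a) := ⟨_, rfl⟩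
  rw [← hy] at h7
  have hCb : 0 < C * b * L := by positivity
  have hd0 : 0 ≤ (b : ℝ) - a := by linarith
  have hy0 : 0 < y := by
    by_contra hcon
    have : ((b : ℝ) - a) * y ≤ 0 := mul_nonpos_of_nonneg_of_nonpos hd0 (not_lt.1 hcon)
    linarith
  obtain ⟨M, hM⟩ : ∃ M : ℝ, M = ((n : ℝ) - (2 * (k + 3) + 1)) * B := ⟨_, rfl⟩
  rw [← hM] at h6
  have hMa : (a : ℝ) ≤ M := by linarith
  have hMb : M ≤ b := by
    have : 0 ≤ (2 * ((k : ℝ) + 3) + 1) * B := by positivity
    have e : M = (n : ℝ) * B - (2 * (k + 3) + 1) * B := by rw [hM]; ring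
    linarith
  have hM0 : 0 ≤ M := by linarith
  -- the gains
  obtain ⟨G, hG⟩ : ∃ G : Fin (k + 3) → ℝ,
      G = fun i => Real.log ((max 1 (lam i / (Q * B)) : ℕ) : ℝ) := ⟨_, rfl⟩
  have hG0 : ∀ i, 0 ≤ G i := by
    intro i
    rw [hG]
    refine Real.log_nonneg ?_
    have : 1 ≤ max 1 (lam i / (Q * B)) := le_max_left _ _
    exact_mod_cast this
  have hG1 : ∀ i, 0 < lam i → Real.log (lam i) - Real.log a - s * L - 1 ≤ G i := by
    intro i hi
    rw [hG]
    have := log_floor (lam i) (Q * B) hi (Nat.mul_pos hQ hB)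
    show _ ≤ Real.log ((max 1 (lam i / (Q * B)) : ℕ) : ℝ)
    linarith
  -- the costs
  obtain ⟨H, hH⟩ : ∃ H : Fin (k + 3) → ℝ,
      H = fun i => Real.log (((a + lam i).choose (lam i) : ℕ) : ℝ) := ⟨_, rfl⟩
  have hH1 : ∀ i, H i ≤ a * (1 + Real.log (1 + (lam i : ℝ) / a)) := by
    intro i
    rw [hH]
    show Real.log (((a + lam i).choose (lam i) : ℕ) : ℝ) ≤ _
    rw [← Nat.choose_symm_add]
    exact log_choose_le a (lam i) (by omega)
  have hsL : 0 ≤ s * L := by positivity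
  have hH2 : ∀ i, H i ≤ M * G i + a * (s * L + 3) := by
    intro i
    refine row_le ha0 hMa (hG0 i) hsL (x := (lam i : ℝ) / a) (by positivity) ?_ (hH1 i)
    intro hx
    have h0' : (0 : ℝ) < lam i := by
      by_contra hcon
      have : (lam i : ℝ) / a ≤ 0 := div_nonpos_of_nonpos_of_nonneg (not_lt.1 hcon) ha0.le
      linarith
    rw [Real.log_div h0'.ne' ha0.ne']
    exact hG1 i (by exact_mod_cast h0')
  -- row 2
  have hl2 : 0 < lam 2 := by
    by_contra hcon
    have h0 : lam 2 = 0 := by omega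
    rw [h0, Nat.cast_zero, zero_div, Real.log_zero] at hy
    linarith
  have hl2' : (0 : ℝ) < lam 2 := by exact_mod_cast hl2
  have hrow2 : H 2 ≤ M * G 2 + (2 * a + b * (s * L + 1) - ((b : ℝ) - a) / 2 * y) := by
    have e1 := hH1 2
    have e4 := log_one_add (x := (lam 2 : ℝ) / a) (by positivity)
    rw [← hy, max_eq_right hy0.le] at e4
    have e5 : H 2 ≤ a * (2 + y) := e1.trans (mul_le_mul_of_nonneg_left (by linarith) ha0.le)
    refine row2_le ha0 hab' h6 hMb hsL hy0 ?_ e5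
    rw [hy, Real.log_div hl2'.ne' ha0.ne']
    exact hG1 2 hl2
  -- rows 0 and 1
  have hrow1 : Real.log a - (c + s) * L - 1 ≤ G 1 := by
    have := hG1 1 h5'
    have e : (c + s) * L = c * L + s * L := by ring
    linarith
  have hrow0 : Real.log a - (c + s) * L - 1 ≤ G 0 := by
    have e1 : lam 1 ≤ lam 0 := hlam (Fin.zero_le _)
    have e2 := hG1 0 (by omega)
    have e3 : Real.log (lam 1) ≤ Real.log (lam 0) :=
      Real.log_le_log (by exact_mod_cast h5') (by exact_mod_cast e1)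
    have e : (c + s) * L = c * L + s * L := by ring
    linarith
  -- the other factors
  have hf1 : Real.log (((a + b).choose a : ℕ) : ℝ) ≤ 2 * b := by
    have e1 : (a + b).choose a ≤ 2 ^ (a + b) := Nat.choose_le_two_pow _ _
    have e2 : (((a + b).choose a : ℕ) : ℝ) ≤ (2 : ℝ) ^ (a + b) := by exact_mod_cast e1
    have e3 : (0 : ℝ) < ((a + b).choose a : ℕ) := by
      exact_mod_cast Nat.choose_pos (by omega)
    have e4 := Real.log_le_log e3 e2
    rw [Real.log_pow] at e4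
    have e5 : ((a + b : ℕ) : ℝ) * Real.log 2 ≤ ((a + b : ℕ) : ℝ) * 1 :=
      mul_le_mul_of_nonneg_left hlog2.le (by positivity)
    push_cast at e4 e5
    linarith
  have hf2 := fac_le (b := b) (n := n) (B := B) h2 (by positivity) h1
  have hf3 := ch_le (B := B) ha' hn0 h2
  -- positivity
  have hp1 : 0 < (a + b).choose a := Nat.choose_pos (by omega)
  have hp2 : 0 < ∏ i : Fin (k + 1), (a + lam i.succ.succ).choose (lam i.succ.succ) :=
    Finset.prod_pos fun i _ => Nat.choose_pos (by omega)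
  have hp3 : 0 < (n * B).factorial := Nat.factorial_pos _
  have hp4 : 0 < (n + n * a).choose n := Nat.choose_pos (by omega)
  have hp5 : ∀ i : Fin (k + 3), 0 < max 1 (lam i / (Q * B)) := fun i =>
    lt_of_lt_of_le Nat.one_pos (le_max_left _ _)
  -- the logarithms of both sides
  have hR : Real.log (((∏ i : Fin (k + 3), max 1 (lam i / (Q * B)) ^ (n - 2 * (k + 3) - 1)) ^ B :
      ℕ) : ℝ) = M * (G 0 + G 1 + (G 2 + ∑ i : Fin k, G i.succ.succ.succ)) := by
    rw [logpow, logprod _ fun i => Nat.pow_pos (hp5 i)]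
    have e1 : ∀ i : Fin (k + 3), Real.log ((max 1 (lam i / (Q * B)) ^ (n - 2 * (k + 3) - 1) : ℕ) :
        ℝ) = ((n : ℝ) - (2 * (k + 3) + 1)) * G i := by
      intro i
      rw [logpow, hG]
      have e2 : ((n - 2 * (k + 3) - 1 : ℕ) : ℝ) = (n : ℝ) - (2 * (k + 3) + 1) := by
        rw [Nat.sub_sub, Nat.cast_sub hn]
        push_cast
        ring
      rw [e2]
    rw [Finset.sum_congr rfl fun i _ => e1 i, ← Finset.mul_sum, Fin.sum_univ_succ,
      Fin.sum_univ_succ, Fin.sum_univ_succ, hM]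
    have e3 : G (Fin.succ 0) = G 1 := rfl
    have e4 : G (Fin.succ (Fin.succ 0)) = G 2 := rfl
    rw [e3, e4]
    ring
  have hLl : Real.log (((a + b).choose a * (∏ i : Fin (k + 1), (a + lam i.succ.succ).choose
      (lam i.succ.succ)) * ((n * B).factorial * (n + n * a).choose n ^ B) : ℕ) : ℝ) =
      Real.log (((a + b).choose a : ℕ) : ℝ) + (H 2 + ∑ i : Fin k, H i.succ.succ.succ) +
        (Real.log (((n * B).factorial : ℕ) : ℝ) +
          B * Real.log (((n + n * a).choose n : ℕ) : ℝ)) := by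
    rw [logmul _ _ (Nat.mul_pos hp1 hp2) (Nat.mul_pos hp3 (Nat.pow_pos hp4)),
      logmul _ _ hp1 hp2, logmul _ _ hp3 (Nat.pow_pos hp4), logpow,
      logprod _ fun i => Nat.choose_pos (by omega)]
    have e1 : ∀ i : Fin (k + 1), Real.log (((a + lam i.succ.succ).choose (lam i.succ.succ) : ℕ) :
        ℝ) = H i.succ.succ := by
      intro i
      rw [hH]
    rw [Finset.sum_congr rfl fun i _ => e1 i, Fin.sum_univ_succ]
    have e4 : H (Fin.succ (Fin.succ 0)) = H 2 := rfl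
    rw [e4]
  have hLpos : (0 : ℝ) < (((a + b).choose a * (∏ i : Fin (k + 1), (a + lam i.succ.succ).choose
      (lam i.succ.succ)) * ((n * B).factorial * (n + n * a).choose n ^ B) : ℕ) : ℝ) := by
    exact_mod_cast Nat.mul_pos (Nat.mul_pos hp1 hp2) (Nat.mul_pos hp3 (Nat.pow_pos hp4))
  have hRpos : (0 : ℝ) < (((∏ i : Fin (k + 3), max 1 (lam i / (Q * B)) ^ (n - 2 * (k + 3) - 1)) ^ B
      : ℕ) : ℝ) := by
    exact_mod_cast Nat.pow_pos (Finset.prod_pos fun i _ => Nat.pow_pos (hp5 i))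
  rw [← Nat.cast_le (α := ℝ), ← Real.log_le_log_iff hLpos hRpos, hR, hLl]
  -- the account
  have hsum : ∑ i : Fin k, H i.succ.succ.succ ≤
      M * (∑ i : Fin k, G i.succ.succ.succ) + k * (a * (s * L + 3)) := by
    have e1 : ∑ i : Fin k, H i.succ.succ.succ ≤
        ∑ i : Fin k, (M * G i.succ.succ.succ + a * (s * L + 3)) :=
      Finset.sum_le_sum fun i _ => hH2 _
    rw [Finset.sum_add_distrib, ← Finset.mul_sum, Finset.sum_const, Finset.card_univ,
      Fintype.card_fin, nsmul_eq_mul] at e1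
    exact e1
  have hg3 : (n : ℝ) * B * Real.log a - (2 * (k + 3) + 1) * b ≤ M * Real.log a := by
    have e1 : (B : ℝ) * Real.log a ≤ b := by
      have : (B : ℝ) * Real.log a ≤ B * n := mul_le_mul_of_nonneg_left h3 hB0.le
      linarith
    have e2 : (2 * ((k : ℝ) + 3) + 1) * (B * Real.log a) ≤ (2 * (k + 3) + 1) * b :=
      mul_le_mul_of_nonneg_left e1 (by positivity)
    have e3 : M * Real.log a = n * B * Real.log a - (2 * ((k : ℝ) + 3) + 1) * (B * Real.log a) := by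
      rw [hM]
      ring
    linarith
  exact account ha0 hab' hb0 (Nat.cast_nonneg k) hL hc hs hM0 hMb h7 hC hrow2 hrow1 hrow0 hf1 hf2
    hf3 hsum hg3

lemma big (E : ℕ) : ∃ A : ℝ, ∀ a : ℝ, A ≤ a → (2 + Real.log a) ^ E ≤ a := by
  have h := Real.tendsto_pow_log_div_mul_add_atTop 1 0 E one_ne_zero
  have h2 : ∀ᶠ x in Filter.atTop, Real.log x ^ E / (1 * x + 0) < Real.exp (-2) :=
    h.eventually (gt_mem_nhds (Real.exp_pos _))
  obtain ⟨x₀, hx⟩ := Filter.eventually_atTop.1 h2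
  refine ⟨max 1 x₀, fun a ha => ?_⟩
  have ha1 : 1 ≤ a := (le_max_left _ _).trans ha
  have ha0 : 0 < a := by linarith
  have h3 : x₀ ≤ Real.exp 2 * a := by
    have e1 : x₀ ≤ a := (le_max_right _ _).trans ha
    have e2 : 1 ≤ Real.exp 2 := Real.one_le_exp (by norm_num)
    nlinarith
  have h4 := hx _ h3
  rw [Real.log_mul (Real.exp_pos _).ne' ha0.ne', Real.log_exp, one_mul, add_zero,
    div_lt_iff₀ (by positivity), ← mul_assoc, ← Real.exp_add] at h4
  norm_num at h4
  exact h4.le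

end Vale.Agent.P181.NR.H964
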