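import Vale.Agent.P181.NR.DefsP
import Vale.Agent.P181.NR.H964.Num

set_option autoImplicit false

/-!
# P181, NR second step, block [P3]: from `LowP` and `UpR` to `CoreP`
-/

open Finset

namespace Vale.Agent.P181.NR.H964

open Vale.Agent.P181.H280 (plethMult)
open Vale.Agent.P181.FR (gw)
open Vale.Agent.P181.NR

/-! ## the gaps -/

/-- the rows, continued by zero -/
def ext {m : ℕ} (lam : Fin m → ℕ) (i : ℕ) : ℕ := if h : i < m then lam ⟨i, h⟩ else 0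

/-- the gaps -/
def gp {m : ℕ} (lam : Fin m → ℕ) (j : ℕ) : ℕ := ext lam (j - 1) - ext lam j

lemma ext_anti {m : ℕ} {lam : Fin m → ℕ} (h : Antitone lam) : Antitone (ext lam) := by
  intro i j hij
  unfold ext
  split_ifs with h1 h2
  · exact h (Fin.mk_le_mk.2 hij)
  · omega
  · exact Nat.zero_le _
  · exact le_rfl

lemma tele (e : ℕ → ℕ) (he : Antitone e) (k n : ℕ) (hk : k ≤ n) :
    ∑ j ∈ Ioc k n, (e (j - 1) - e j) + e n = e k := by
  induction n, hk using Nat.le_induction with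
  | base => simp
  | succ n hkn ih =>
    rw [Finset.sum_Ioc_succ_top hkn]
    have h1 := he (Nat.le_succ n)
    have h2 : n + 1 - 1 = n := rfl
    rw [h2]
    have h3 : e (n + 1) ≤ e n := h1
    omega

lemma gw_gp {m : ℕ} {lam : Fin m → ℕ} (h : Antitone lam) : gw m (gp lam) = lam := by
  funext i
  have h1 := tele (ext lam) (ext_anti h) i m i.2.le
  have h2 : ext lam m = 0 := by
    unfold ext
    rw [dif_neg (lt_irrefl m)]
  have h3 : ext lam i = lam i := by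
    unfold ext
    rw [dif_pos i.2]
  rw [h2, add_zero, h3] at h1
  exact h1

lemma sum_gw (m : ℕ) (g : ℕ → ℕ) : ∑ i, gw m g i = ∑ j ∈ Finset.Icc 1 m, j * g j := by
  unfold gw
  have h1 : ∀ i : Fin m, ∑ j ∈ Finset.Ioc (i : ℕ) m, g j =
      ∑ j ∈ Finset.Icc 1 m, if (i : ℕ) < j then g j else 0 := by
    intro i
    rw [← Finset.sum_filter]
    apply Finset.sum_congr _ fun _ _ => rfl
    ext x
    rw [Finset.mem_filter, Finset.mem_Ioc, Finset.mem_Icc]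
    constructor
    · rintro ⟨h, h'⟩
      exact ⟨⟨by omega, h'⟩, h⟩
    · rintro ⟨⟨_, h'⟩, h⟩
      exact ⟨h, h'⟩
  rw [Finset.sum_congr rfl fun i _ => h1 i, Finset.sum_comm]
  apply Finset.sum_congr rfl
  intro j hj
  rw [Finset.mem_Icc] at hj
  rw [← Finset.sum_filter, Finset.sum_const, smul_eq_mul]
  congr 1
  have h2 : (Finset.univ.filter fun i : Fin m => (i : ℕ) < j) =
      (Finset.univ : Finset (Fin j)).map (Fin.castLEEmb hj.2) := by
    ext x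
    rw [Finset.mem_filter, Finset.mem_map]
    constructor
    · rintro ⟨_, h⟩
      exact ⟨⟨x, h⟩, Finset.mem_univ _, by ext; rfl⟩
    · rintro ⟨y, _, rfl⟩
      exact ⟨Finset.mem_univ _, y.2⟩
  rw [h2, Finset.card_map, Finset.card_univ, Fintype.card_fin]

lemma sum_gp {m : ℕ} {lam : Fin m → ℕ} (h : Antitone lam) :
    ∑ j ∈ Finset.Icc 1 m, j * gp lam j = ∑ i, lam i := by
  rw [← sum_gw, gw_gp h]

lemma exists_gp {k : ℕ} {lam : Fin (k + 3) → ℕ} (h : Antitone lam) :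
    ∃ j, 3 ≤ j ∧ j ≤ k + 3 ∧ lam 2 ≤ (k + 3) * gp lam j := by
  have hne : (Ioc 2 (k + 3)).Nonempty := ⟨3, by rw [Finset.mem_Ioc]; omega⟩
  obtain ⟨j, hj, hmax⟩ := Finset.exists_max_image (Ioc 2 (k + 3)) (gp lam) hne
  rw [Finset.mem_Ioc] at hj
  refine ⟨j, by omega, hj.2, ?_⟩
  have h1 : lam 2 = ∑ i ∈ Ioc 2 (k + 3), gp lam i := by
    have h2 := congrFun (gw_gp h) 2
    rw [← h2]
    rfl
  rw [h1]
  refine (Finset.sum_le_card_nsmul _ _ _ hmax).trans ?_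
  rw [smul_eq_mul, Nat.card_Ioc]
  exact Nat.mul_le_mul (by omega) le_rfl

/-! ## the parameters -/

/-- the parameters, first part -/
lemma paramsA (k D c a b n : ℕ) (L : ℝ) (hLdef : L = 2 + Real.log a)
    (hR1 : ((k + 3).factorial : ℝ) * (4 * (k + 3) + 4) ≤ L) (ha1 : 1 ≤ a)
    (hn : n = (k + 3).factorial * (⌈Real.log a⌉₊ + 4 * (k + 3) + 4)) :
    16 ≤ L ∧ ((k : ℝ) + 3) ≤ L ∧ 1 ≤ Real.log L ∧ L ≤ n ∧ 4 * (k + 3) + 4 ≤ n ∧
      (n : ℝ) ≤ L ^ 2 := by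
  have ha' : (1 : ℝ) ≤ a := by exact_mod_cast ha1
  have ha0 : (0 : ℝ) < a := by linarith
  have hla : 0 ≤ Real.log a := Real.log_nonneg ha'
  have hk0 : (0 : ℝ) ≤ k := Nat.cast_nonneg k
  have hfac : (1 : ℝ) ≤ ((k + 3).factorial : ℝ) := by
    exact_mod_cast Nat.factorial_pos (k + 3)
  have hL16 : 16 ≤ L := by
    have h1 : (16 : ℝ) ≤ ((k + 3).factorial : ℝ) * (4 * (k + 3) + 4) := by
      have : (16 : ℝ) ≤ 1 * (4 * (k + 3) + 4) := by linarith
      exact this.trans (mul_le_mul_of_nonneg_right hfac (by linarith))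
    linarith
  have hL0 : 0 < L := by linarith
  have hL1 : 1 ≤ L := by linarith
  have hkL : ((k : ℝ) + 3) ≤ L := by
    have : (4 * ((k : ℝ) + 3) + 4) ≤ ((k + 3).factorial : ℝ) * (4 * (k + 3) + 4) :=
      le_mul_of_one_le_left (by linarith) hfac
    linarith
  have hLam : 1 ≤ Real.log L := by
    have h1 : Real.exp 1 ≤ L := by
      have := Real.exp_one_lt_d9
      linarith
    have h2 := Real.log_le_log (Real.exp_pos 1) h1
    rwa [Real.log_exp] at h2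
  have hpow : ∀ i j : ℕ, i ≤ j → L ^ i ≤ L ^ j := fun i j hij => pow_le_pow_right₀ hL1 hij
  -- the size of `n`
  have hnR : (n : ℝ) = ((k + 3).factorial : ℝ) * ((⌈Real.log a⌉₊ : ℝ) + 4 * (k + 3) + 4) := by
    rw [hn]
    push_cast
    ring
  have hce1 : Real.log a ≤ (⌈Real.log a⌉₊ : ℝ) := Nat.le_ceil _
  have hce2 : (⌈Real.log a⌉₊ : ℝ) < Real.log a + 1 := Nat.ceil_lt_add_one hla
  have hnL : L ≤ n := by
    have h1 : L ≤ (⌈Real.log a⌉₊ : ℝ) + 4 * (k + 3) + 4 := by linarith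
    rw [hnR]
    exact h1.trans (le_mul_of_one_le_left (by positivity) hfac)
  have hn4 : 4 * (k + 3) + 4 ≤ n := by
    have h1 := Nat.factorial_pos (k + 3)
    have h2 : 1 * (⌈Real.log a⌉₊ + 4 * (k + 3) + 4) ≤ n := by
      rw [hn]
      exact Nat.mul_le_mul h1 le_rfl
    omega
  have hn0 : 0 < n := by omega
  have hn0' : (0 : ℝ) < n := by exact_mod_cast hn0
  have hnL2 : (n : ℝ) ≤ L ^ 2 := by
    have h1 : (⌈Real.log a⌉₊ : ℝ) + 4 * (k + 3) + 4 ≤ (4 * (k + 3) + 4) * L := by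
      have h2 : (4 * ((k : ℝ) + 3) + 3) * 1 ≤ (4 * (k + 3) + 3) * L :=
        mul_le_mul_of_nonneg_left hL1 (by linarith)
      have h3 : (4 * ((k : ℝ) + 3) + 4) * L = (4 * (k + 3) + 3) * L + L := by ring
      linarith
    rw [hnR]
    calc ((k + 3).factorial : ℝ) * ((⌈Real.log a⌉₊ : ℝ) + 4 * (k + 3) + 4) ≤
        ((k + 3).factorial : ℝ) * ((4 * (k + 3) + 4) * L) :=
          mul_le_mul_of_nonneg_left h1 (by linarith)
      _ = ((k + 3).factorial : ℝ) * (4 * (k + 3) + 4) * L := by ring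
      _ ≤ L * L := mul_le_mul_of_nonneg_right hR1 hL0.le
      _ = L ^ 2 := by ring
  exact ⟨hL16, hkL, hLam, hnL, hn4, hnL2⟩

/-- the parameters, second part -/
lemma paramsB (k D c a b : ℕ) (lam : Fin (k + 3) → ℕ)
    (L C : ℝ) (hLdef : L = 2 + Real.log a) (hsum : ∑ i, lam i = a * b)
    (hA : L ^ (2 * D + c + 6) ≤ a) (hab : a ≤ b) (ha1 : 1 ≤ a)
    (hba : (b : ℝ) ≤ a * L ^ c) (hL16 : 16 ≤ L) (hLam : 1 ≤ Real.log L)
    (hH : C * b * Real.log L ≤ ((b : ℝ) - a) * Real.log ((lam 2 : ℝ) / a))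
    (hC2 : 16 * (2 * ((k : ℝ) + 3) + 2) ≤ C) (hC3 : 2 * (D : ℝ) + c + 2 ≤ C) :
    (a : ℝ) * L ^ (2 * D + c + 2) ≤ lam 2 ∧ 8 * (2 * ((k : ℝ) + 3) + 2) * b ≤ L * (b - a) := by
  have ha' : (1 : ℝ) ≤ a := by exact_mod_cast ha1
  have ha0 : (0 : ℝ) < a := by linarith
  have hab' : (a : ℝ) ≤ b := by exact_mod_cast hab
  have hb0 : (0 : ℝ) < b := by linarith
  have hla : 0 ≤ Real.log a := Real.log_nonneg ha'
  have hk0 : (0 : ℝ) ≤ k := Nat.cast_nonneg k
  have hL0 : 0 < L := by linarith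
  have hL1 : 1 ≤ L := by linarith
  have hpow : ∀ i j : ℕ, i ≤ j → L ^ i ≤ L ^ j := fun i j hij => pow_le_pow_right₀ hL1 hij
  -- the third row
  obtain ⟨y, hy⟩ : ∃ y, y = Real.log ((lam 2 : ℝ) / a) := ⟨_, rfl⟩
  rw [← hy] at hH
  have hC0 : 0 < C := by linarith
  have hCb : 0 < C * b * Real.log L := by positivity
  have hd0 : 0 ≤ (b : ℝ) - a := by linarith
  have hy0 : 0 < y := by
    by_contra hcon
    have : ((b : ℝ) - a) * y ≤ 0 := mul_nonpos_of_nonneg_of_nonpos hd0 (not_lt.1 hcon)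
    linarith
  have hCy : C * Real.log L ≤ y := by
    have h1 : ((b : ℝ) - a) * y ≤ b * y := mul_le_mul_of_nonneg_right (by linarith) hy0.le
    have h2 : (b : ℝ) * (C * Real.log L) ≤ b * y := by
      have : (b : ℝ) * (C * Real.log L) = C * b * Real.log L := by ring
      linarith
    exact le_of_mul_le_mul_left h2 hb0
  have hl2 : (0 : ℝ) < lam 2 := by
    by_contra hcon
    have h0 : (lam 2 : ℝ) / a ≤ 0 := div_nonpos_of_nonpos_of_nonneg (not_lt.1 hcon) ha0.le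
    have h1 : (lam 2 : ℝ) / a = 0 := le_antisymm h0 (by positivity)
    rw [h1, Real.log_zero] at hy
    linarith
  have hyexp : Real.exp y = (lam 2 : ℝ) / a := by
    rw [hy, Real.exp_log (by positivity)]
  have hlam2 : (lam 2 : ℝ) = a * Real.exp y := by
    rw [hyexp]
    field_simp
  have hlam2L : (a : ℝ) * L ^ (2 * D + c + 2) ≤ lam 2 := by
    rw [hlam2]
    refine mul_le_mul_of_nonneg_left ?_ ha0.le
    have h1 : L ^ (2 * D + c + 2) = Real.exp (((2 * D + c + 2 : ℕ) : ℝ) * Real.log L) := by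
      rw [Real.exp_nat_mul, Real.exp_log hL0]
    rw [h1]
    refine Real.exp_le_exp.2 (le_trans ?_ hCy)
    refine mul_le_mul_of_nonneg_right ?_ (by linarith)
    push_cast
    exact hC3
  have hyL : y ≤ 2 * L := by
    have h1 : lam 2 ≤ a * b := by
      rw [← hsum]
      exact Finset.single_le_sum (f := lam) (fun _ _ => Nat.zero_le _) (Finset.mem_univ 2)
    have h2 : (lam 2 : ℝ) / a ≤ b := by
      rw [div_le_iff₀ ha0]
      have : (lam 2 : ℝ) ≤ a * b := by exact_mod_cast h1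
      linarith
    have h3 : (b : ℝ) ≤ (a : ℝ) ^ 2 := by
      have h4 : L ^ c ≤ a := (hpow c (2 * D + c + 6) (by omega)).trans hA
      have h5 : (a : ℝ) * L ^ c ≤ a * a := mul_le_mul_of_nonneg_left h4 ha0.le
      have h6 : (a : ℝ) ^ 2 = a * a := by ring
      linarith
    have h7 : y ≤ Real.log ((a : ℝ) ^ 2) := by
      rw [hy]
      exact Real.log_le_log (by positivity) (h2.trans h3)
    rw [Real.log_pow] at h7
    push_cast at h7
    linarith
  have hdL : 8 * (2 * ((k : ℝ) + 3) + 2) * b ≤ L * (b - a) := by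
    have h1 : C * b ≤ C * b * Real.log L := le_mul_of_one_le_right (by positivity) hLam
    have h2 : ((b : ℝ) - a) * y ≤ (b - a) * (2 * L) := mul_le_mul_of_nonneg_left hyL hd0
    have h3 : 16 * (2 * ((k : ℝ) + 3) + 2) * b ≤ C * b := mul_le_mul_of_nonneg_right hC2 hb0.le
    have h4 : ((b : ℝ) - a) * (2 * L) = 2 * (L * (b - a)) := by ring
    linarith
  exact ⟨hlam2L, hdL⟩

/-- the parameters, third part -/
lemma paramsC (k a b n B : ℕ) (L : ℝ)
    (hA : L ^ 3 ≤ a) (hab : a ≤ b) (ha1 : 1 ≤ a) (hL16 : 16 ≤ L) (hnL : L ≤ n)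
    (hnL2 : (n : ℝ) ≤ L ^ 2) (hdL : 8 * (2 * ((k : ℝ) + 3) + 2) * b ≤ L * (b - a))
    (hB : B = (b - (b - a) / 8) / n) :
    0 < B ∧ b ≤ 2 * n * B ∧ n * B ≤ b ∧ (B : ℝ) ≤ b ∧
      (∃ e : ℕ, (n : ℝ) * B + e ≤ b ∧ (b : ℝ) - a ≤ 8 * e + 8) ∧
      (a : ℝ) + ((b : ℝ) - a) / 2 ≤ ((n : ℝ) - (2 * (k + 3) + 1)) * B := by
  have ha' : (1 : ℝ) ≤ a := by exact_mod_cast ha1
  have ha0 : (0 : ℝ) < a := by linarith
  have hab' : (a : ℝ) ≤ b := by exact_mod_cast hab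
  have hb0 : (0 : ℝ) < b := by linarith
  have hk0 : (0 : ℝ) ≤ k := Nat.cast_nonneg k
  have hL0 : 0 < L := by linarith
  have hn0' : (0 : ℝ) < n := by linarith
  have hn0 : 0 < n := by exact_mod_cast hn0'
  -- the division by 8
  obtain ⟨e, he⟩ : ∃ e, e = (b - a) / 8 := ⟨_, rfl⟩
  have he1 : 8 * e ≤ b - a := by
    rw [he]
    exact Nat.mul_div_le _ _
  have he2 : b - a < 8 * e + 8 := by omega
  have he1' : 8 * (e : ℝ) ≤ b - a := by
    have : ((8 * e : ℕ) : ℝ) ≤ ((b - a : ℕ) : ℝ) := by exact_mod_cast he1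
    rw [Nat.cast_sub hab] at this
    push_cast at this
    exact this
  have he2' : (b : ℝ) - a ≤ 8 * e + 8 := by
    have : ((b - a : ℕ) : ℝ) ≤ ((8 * e + 8 : ℕ) : ℝ) := by exact_mod_cast he2.le
    rw [Nat.cast_sub hab] at this
    push_cast at this
    exact this
  rw [← he] at hB
  have hnB1 : n * B ≤ b - e := by
    rw [hB]
    exact Nat.mul_div_le _ _
  have hnB2 : b - e < n * (B + 1) := by
    rw [hB]
    exact Nat.lt_mul_div_succ _ hn0
  have hnB1' : (n : ℝ) * B + e ≤ b := by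
    have : n * B + e ≤ b := by omega
    exact_mod_cast this
  have hnB2' : (b : ℝ) ≤ n * B + n + e := by
    have h1 : b ≤ n * (B + 1) + e := by omega
    have h2 : (b : ℝ) ≤ ((n * (B + 1) + e : ℕ) : ℝ) := by exact_mod_cast h1
    push_cast at h2
    linarith
  have he0 : (0 : ℝ) ≤ e := Nat.cast_nonneg e
  -- `n L ≤ b`
  have hnLb : (n : ℝ) * L ≤ b := by
    have h1 : (n : ℝ) * L ≤ L ^ 2 * L := mul_le_mul_of_nonneg_right hnL2 hL0.le
    have h2 : L ^ 2 * L = L ^ 3 := by ring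
    linarith
  have hn16 : 16 * (n : ℝ) ≤ b := by
    have : (n : ℝ) * 16 ≤ n * L := mul_le_mul_of_nonneg_left hL16 hn0'.le
    linarith
  have hBpos : 0 < B := by
    by_contra hcon
    have h0 : B = 0 := by omega
    rw [h0, Nat.cast_zero, mul_zero, zero_add] at hnB2'
    linarith
  have hB0' : (0 : ℝ) < B := by exact_mod_cast hBpos
  have hBb : (B : ℝ) ≤ b := by
    have h1 : (B : ℝ) * 1 ≤ B * n := mul_le_mul_of_nonneg_left (by linarith) hB0'.le
    linarith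
  have hlast : (a : ℝ) + ((b : ℝ) - a) / 2 ≤ ((n : ℝ) - (2 * (k + 3) + 1)) * B := by
    have h1 : L * ((n : ℝ) + (2 * (k + 3) + 1) * B) ≤ L * (3 / 8 * ((b : ℝ) - a)) := by
      have h2 : (B : ℝ) * L ≤ b := by
        have : (B : ℝ) * L ≤ B * n := mul_le_mul_of_nonneg_left hnL hB0'.le
        linarith
      have h3 : (2 * ((k : ℝ) + 3) + 1) * (B * L) ≤ (2 * (k + 3) + 1) * b :=
        mul_le_mul_of_nonneg_left h2 (by linarith)
      have h4 : L * ((n : ℝ) + (2 * (k + 3) + 1) * B) =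
        n * L + (2 * (k + 3) + 1) * (B * L) := by ring
      have h5 : L * (3 / 8 * ((b : ℝ) - a)) = 3 / 8 * (L * (b - a)) := by ring
      have h6 : 0 ≤ (k : ℝ) * b := by positivity
      have h7 : (2 * ((k : ℝ) + 3) + 1) * b = 2 * (k * b) + 7 * b := by ring
      have h8 : 8 * (2 * ((k : ℝ) + 3) + 2) * b = 16 * (k * b) + 64 * b := by ring
      rw [h4, h5]
      rw [h7] at h3
      rw [h8] at hdL
      linarith
    have h6 := le_of_mul_le_mul_left h1 hL0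
    have h7 : ((n : ℝ) - (2 * (k + 3) + 1)) * B = n * B - (2 * (k + 3) + 1) * B := by ring
    rw [h7]
    linarith
  have h2n : b ≤ 2 * n * B := by
    have h1 : (b : ℝ) ≤ 2 * n * B := by linarith
    exact_mod_cast h1
  exact ⟨hBpos, h2n, by omega, hBb, ⟨e, hnB1', he2'⟩, hlast⟩

/-- the parameters -/
lemma params (k D c D' a b n B : ℕ) (lam : Fin (k + 3) → ℕ) (hlam : Antitone lam)
    (L C : ℝ) (hLdef : L = 2 + Real.log a) (hsum : ∑ i, lam i = a * b)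
    (hA : L ^ (2 * D + c + 6) ≤ a)
    (hR1 : ((k + 3).factorial : ℝ) * (4 * (k + 3) + 4) ≤ L) (hab : a ≤ b) (ha1 : 1 ≤ a)
    (hba : (b : ℝ) ≤ a * L ^ c)
    (hH : C * b * Real.log L ≤ ((b : ℝ) - a) * Real.log ((lam 2 : ℝ) / a))
    (hC2 : 16 * (2 * ((k : ℝ) + 3) + 2) ≤ C) (hC3 : 2 * (D : ℝ) + c + 2 ≤ C) (hD' : D' ≤ D)
    (hn : n = (k + 3).factorial * (⌈Real.log a⌉₊ + 4 * (k + 3) + 4))
    (hB : B = (b - (b - a) / 8) / n) :
    1 ≤ Real.log L ∧ L ≤ n ∧ 4 * (k + 3) + 4 ≤ n ∧ n ^ D' ≤ a ∧ 0 < B ∧ b ≤ 2 * n * B ∧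
      n * B ≤ b ∧ n * B * a + n ^ D' * a + n ^ D' * B ≤ a * b ∧
      (∀ g : ℕ, lam 2 ≤ (k + 3) * g → n ^ D' * (a + B) ≤ g) ∧
      ((n ^ D' * B : ℕ) : ℝ) ≤ a * L ^ (2 * D + c) ∧
      (a : ℝ) + ((b : ℝ) - a) / 2 ≤ ((n : ℝ) - (2 * (k + 3) + 1)) * B := by
  obtain ⟨hL16, hkL, hLam, hnL, hn4, hnL2⟩ := paramsA k D c a b n L hLdef hR1 ha1 hn
  obtain ⟨hlam2L, hdL⟩ := paramsB k D c a b lam L C hLdef hsum hA hab ha1 hba hL16 hLam hH hC2 hC3
  have ha' : (1 : ℝ) ≤ a := by exact_mod_cast ha1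
  have ha0 : (0 : ℝ) < a := by linarith
  have hab' : (a : ℝ) ≤ b := by exact_mod_cast hab
  have hb0 : (0 : ℝ) < b := by linarith
  have hk0 : (0 : ℝ) ≤ k := Nat.cast_nonneg k
  have hL0 : 0 < L := by linarith
  have hL1 : 1 ≤ L := by linarith
  have hpow : ∀ i j : ℕ, i ≤ j → L ^ i ≤ L ^ j := fun i j hij => pow_le_pow_right₀ hL1 hij
  obtain ⟨hBpos, h2n, hnBb, hBb, ⟨e, hnB1', he2'⟩, hlast⟩ := paramsC k a b n B L
    ((hpow 3 (2 * D + c + 6) (by omega)).trans hA) hab ha1 hL16 hnL hnL2 hdL hB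
  have hn0 : 0 < n := by omega
  have hn0' : (0 : ℝ) < n := by exact_mod_cast hn0
  have hB0' : (0 : ℝ) < B := by exact_mod_cast hBpos
  have hQL : ((n ^ D' : ℕ) : ℝ) ≤ L ^ (2 * D) := by
    rw [Nat.cast_pow]
    calc (n : ℝ) ^ D' ≤ (L ^ 2) ^ D' := pow_le_pow_left₀ hn0'.le hnL2 _
      _ = L ^ (2 * D') := by rw [← pow_mul]
      _ ≤ L ^ (2 * D) := hpow _ _ (by omega)
  have hQ0 : (0 : ℝ) ≤ ((n ^ D' : ℕ) : ℝ) := Nat.cast_nonneg _
  -- the powers
  obtain ⟨P, hP⟩ : ∃ P, P = L ^ (2 * D + c) := ⟨_, rfl⟩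
  have hP1 : 1 ≤ P := by
    rw [hP]
    exact one_le_pow₀ hL1
  have hLc : 1 ≤ L ^ c := one_le_pow₀ hL1
  have haB : (a : ℝ) + B ≤ a * (2 * L ^ c) := by
    have h1 : (a : ℝ) * 1 ≤ a * L ^ c := mul_le_mul_of_nonneg_left hLc ha0.le
    have h2 : (a : ℝ) * (2 * L ^ c) = a * L ^ c + a * L ^ c := by ring
    linarith
  have hQaB : ((n ^ D' : ℕ) : ℝ) * ((a : ℝ) + B) ≤ 2 * (a * P) := by
    calc ((n ^ D' : ℕ) : ℝ) * ((a : ℝ) + B) ≤ L ^ (2 * D) * (a * (2 * L ^ c)) :=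
          mul_le_mul hQL haB (by positivity) (by positivity)
      _ = 2 * (a * P) := by rw [hP, pow_add]; ring
  have hQB : ((n ^ D' : ℕ) : ℝ) * (B : ℝ) ≤ a * P := by
    calc ((n ^ D' : ℕ) : ℝ) * (B : ℝ) ≤ L ^ (2 * D) * (a * L ^ c) :=
          mul_le_mul hQL (hBb.trans hba) hB0'.le (by positivity)
      _ = a * P := by rw [hP, pow_add]; ring
  have hPL : P * L ^ 6 ≤ a := by
    rw [hP, ← pow_add]
    exact hA
  have hPL1 : P * L ≤ P * L ^ 6 := by
    refine mul_le_mul_of_nonneg_left ?_ (by linarith)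
    have := hpow 1 6 (by norm_num)
    rwa [pow_one] at this
  refine ⟨hLam, hnL, hn4, ?_, hBpos, h2n, hnBb, ?_, ?_, ?_, hlast⟩
  · have h1 : ((n ^ D' : ℕ) : ℝ) ≤ (a : ℝ) := hQL.trans ((hpow _ _ (by omega)).trans hA)
    exact_mod_cast h1
  · -- the cells
    have h1 : 2 * P ≤ e := by
      have h2 : 64 * (a : ℝ) ≤ L * (b - a) := by
        have h3 : 64 * (b : ℝ) ≤ 8 * (2 * ((k : ℝ) + 3) + 2) * b :=
          mul_le_mul_of_nonneg_right (by linarith) hb0.le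
        linarith
      have h4 : 64 * (P * L) ≤ L * (b - a) := by linarith
      have h5 : L * (64 * P) ≤ L * (b - a) := by
        have : L * (64 * P) = 64 * (P * L) := by ring
        linarith
      have h6 : 64 * P ≤ (b : ℝ) - a := le_of_mul_le_mul_left h5 hL0
      linarith
    have h2 : (a : ℝ) * (2 * P) ≤ a * e := mul_le_mul_of_nonneg_left h1 ha0.le
    have h3 : (a : ℝ) * ((n : ℝ) * B + e) ≤ a * b := mul_le_mul_of_nonneg_left hnB1' ha0.le
    have h4 : (n : ℝ) * B * a + ((n ^ D' : ℕ) : ℝ) * a + ((n ^ D' : ℕ) : ℝ) * B ≤ a * b := by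
      have e1 : ((n ^ D' : ℕ) : ℝ) * ((a : ℝ) + B) =
        ((n ^ D' : ℕ) : ℝ) * a + ((n ^ D' : ℕ) : ℝ) * B := by ring
      have e2 : (a : ℝ) * ((n : ℝ) * B + e) = (n : ℝ) * B * a + a * e := by ring
      linarith
    exact_mod_cast h4
  · intro g hg
    have hg' : (lam 2 : ℝ) ≤ ((k : ℝ) + 3) * g := by exact_mod_cast hg
    have h1 : ((k : ℝ) + 3) * (2 * (a * P)) ≤ ((k : ℝ) + 3) * g := by
      have h2 : ((k : ℝ) + 3) * (2 * (a * P)) ≤ L * (L * (a * P)) :=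
        mul_le_mul hkL (mul_le_mul_of_nonneg_right (by linarith) (by positivity))
          (by positivity) hL0.le
      have h3 : L * (L * (a * P)) = a * L ^ (2 * D + c + 2) := by
        rw [hP, pow_add L (2 * D + c) 2]
        ring
      linarith
    have h4 : 2 * (a * P) ≤ (g : ℝ) := le_of_mul_le_mul_left h1 (by linarith)
    have h5 := hQaB.trans h4
    exact_mod_cast h5
  · rw [Nat.cast_mul, ← hP]
    exact hQB

/-- **(P3)**, the numbers. -/
theorem coreP (hLow : LowP) (hU : UpR) : CoreP := by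
  intro k c₀ C₀ hC₀
  have hD : ∀ j : ℕ, ∃ D : ℕ, 3 ≤ j → j ≤ k + 3 → ∀ n : ℕ, 4 * (k + 3) + 4 ≤ n →
      (k + 3).factorial ∣ n → ∀ (a b B : ℕ) (g : ℕ → ℕ), n ^ D ≤ a → 0 < B → b ≤ 2 * n * B →
      n * B * a + n ^ D * a + n ^ D * B ≤ a * b → n ^ D * (a + B) ≤ g j →
      ∑ i ∈ Finset.Icc 1 (k + 3), i * g i = a * b →
      (∏ i : Fin (k + 3), max 1 (gw (k + 3) g i / (n ^ D * B)) ^ (n - 2 * (k + 3) - 1)) ^ B ≤
        (n * B).factorial * (n + n * a).choose n ^ B *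
          plethMult b a (k + 3) (gw (k + 3) g) := by
    intro j
    by_cases h : 3 ≤ j ∧ j ≤ k + 3
    · obtain ⟨D, hD⟩ := hLow (k + 3) j h.1 h.2
      exact ⟨D, fun _ _ => hD⟩
    · exact ⟨0, fun h1 h2 => absurd ⟨h1, h2⟩ h⟩
  choose Df hDf using hD
  obtain ⟨D, hDdef⟩ : ∃ D, D = ∑ j ∈ range (k + 4), Df j := ⟨_, rfl⟩
  have hDle : ∀ j, j ≤ k + 3 → Df j ≤ D := by
    intro j hj
    rw [hDdef]
    exact Finset.single_le_sum (f := Df) (fun _ _ => Nat.zero_le _)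
      (Finset.mem_range.2 (by omega))
  obtain ⟨c, hc⟩ : ∃ c, c = c₀ + 1 := ⟨_, rfl⟩
  obtain ⟨A₁, hA₁⟩ := big (2 * D + c + 6)
  obtain ⟨R, hR⟩ : ∃ R : ℝ, R = C₀ + ((k + 3).factorial : ℝ) * (4 * (k + 3) + 4) := ⟨_, rfl⟩
  obtain ⟨s, hs⟩ : ∃ s : ℝ, s = 2 * D + c := ⟨_, rfl⟩
  have hs0 : 0 ≤ s := by rw [hs]; positivity
  have hc0 : (0 : ℝ) ≤ c := Nat.cast_nonneg c
  have hk0 : (0 : ℝ) ≤ k := Nat.cast_nonneg k
  obtain ⟨K, hK⟩ : ∃ K : ℝ, K = 2 * (11 + 3 * s + 3 * c + (k + 3) * (s + 7)) := ⟨_, rfl⟩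
  have hK0 : 0 ≤ K := by rw [hK]; positivity
  refine ⟨|A₁| + Real.exp R + K + 16 * (2 * ((k : ℝ) + 3) + 2) + (2 * (D : ℝ) + c + 2),
    by positivity, ?_⟩
  intro a b lam hlam hsum hCa hab hb1 hl1 hH
  obtain ⟨C, hC⟩ : ∃ C, C = |A₁| + Real.exp R + K + 16 * (2 * ((k : ℝ) + 3) + 2) +
    (2 * (D : ℝ) + c + 2) := ⟨_, rfl⟩
  rw [← hC] at hCa hH
  have hAabs : A₁ ≤ |A₁| := le_abs_self A₁
  have hAabs0 : 0 ≤ |A₁| := abs_nonneg A₁
  have hexp : 0 < Real.exp R := Real.exp_pos R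
  have hD0 : (0 : ℝ) ≤ D := Nat.cast_nonneg D
  have haA : A₁ ≤ a := by linarith
  have haR : Real.exp R ≤ a := by linarith
  have haR0 : 0 < (a : ℝ) := by linarith
  have ha1 : 1 ≤ a := by
    have : 0 < a := by exact_mod_cast haR0
    omega
  have ha' : (1 : ℝ) ≤ a := by exact_mod_cast ha1
  obtain ⟨L, hL⟩ : ∃ L, L = 2 + Real.log a := ⟨_, rfl⟩
  have hla : R ≤ Real.log a := by
    have h1 := Real.log_le_log hexp haR
    rwa [Real.log_exp] at h1
  have hfacpos : (0 : ℝ) ≤ ((k + 3).factorial : ℝ) * (4 * (k + 3) + 4) := by positivity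
  have hR1 : ((k + 3).factorial : ℝ) * (4 * (k + 3) + 4) ≤ L := by linarith
  have hLC : C₀ ≤ L := by linarith
  have hlog0 : 0 ≤ Real.log a := Real.log_nonneg ha'
  have hL0 : 0 < L := by linarith
  have hA : L ^ (2 * D + c + 6) ≤ a := by
    rw [hL]
    exact hA₁ a haA
  have hpoly : C₀ * (1 + Real.log a) ^ c₀ ≤ L ^ c := by
    have h1 : (1 + Real.log a) ^ c₀ ≤ L ^ c₀ :=
      pow_le_pow_left₀ (by linarith) (by linarith) _
    calc C₀ * (1 + Real.log a) ^ c₀ ≤ L * L ^ c₀ :=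
          mul_le_mul hLC h1 (by positivity) hL0.le
      _ = L ^ c := by rw [hc, pow_succ]; ring
  have hba : (b : ℝ) ≤ a * L ^ c := by
    have h1 : C₀ * a * (1 + Real.log a) ^ c₀ = a * (C₀ * (1 + Real.log a) ^ c₀) := by ring
    have h2 : (a : ℝ) * (C₀ * (1 + Real.log a) ^ c₀) ≤ a * L ^ c :=
      mul_le_mul_of_nonneg_left hpoly haR0.le
    linarith
  have hl1' : (a : ℝ) ^ 2 ≤ L ^ c * lam 1 :=
    hl1.trans (mul_le_mul_of_nonneg_right hpoly (Nat.cast_nonneg _))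
  have hl1pos : 0 < lam 1 := by
    by_contra hcon
    have h0 : lam 1 = 0 := by omega
    rw [h0, Nat.cast_zero, mul_zero] at hl1'
    have : 0 < (a : ℝ) ^ 2 := by positivity
    linarith
  have hl1pos' : (0 : ℝ) < lam 1 := by exact_mod_cast hl1pos
  obtain ⟨j, hj3, hjk, hjg⟩ := exists_gp hlam
  rw [← hL] at hH
  obtain ⟨n, hn⟩ : ∃ n, n = (k + 3).factorial * (⌈Real.log a⌉₊ + 4 * (k + 3) + 4) := ⟨_, rfl⟩
  obtain ⟨B, hB⟩ : ∃ B, B = (b - (b - a) / 8) / n := ⟨_, rfl⟩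
  obtain ⟨p1, p2, p3, p4, p5, p6, p7, p8, p9, p10, p11⟩ := params k D c (Df j) a b n B lam hlam L C
    hL hsum hA hR1 hab ha1 hba hH (by linarith) (by linarith) (hDle j hjk) hn hB
  have hlow := hDf j hj3 hjk n p3 ⟨_, hn⟩ a b B (gp lam) p4 p5 p6 p8 (p9 _ hjg)
    ((sum_gp hlam).trans hsum)
  rw [gw_gp hlam] at hlow
  have hup := hU (k + 1) a b lam hlam
  have hQ0 : 0 < n ^ Df j := Nat.pow_pos (by omega)
  have hb0 : (0 : ℝ) < b := by
    have : (a : ℝ) ≤ b := by exact_mod_cast hab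
    linarith
  have hlogL : Real.log (L ^ c) = c * Real.log L := by rw [Real.log_pow]
  have hnum := core_num k a b n B (n ^ Df j) lam hlam (Real.log L) c s C p1 hc0 hs0 ha1 hab
    (by omega) p5 hQ0 (by
      have h1 := Real.log_le_log hb0 hba
      rwa [Real.log_mul haR0.ne' (by positivity), hlogL] at h1) p7 (by linarith) (by
      have hpos : (0 : ℝ) < ((n ^ Df j * B : ℕ) : ℝ) := by
        exact_mod_cast Nat.mul_pos hQ0 p5
      have h1 := Real.log_le_log hpos p10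
      rw [Real.log_mul haR0.ne' (by positivity), Real.log_pow] at h1
      have h2 : ((2 * D + c : ℕ) : ℝ) = s := by
        rw [hs]
        push_cast
        ring
      rwa [h2] at h1) (by
      have h1 := Real.log_le_log (by positivity) hl1'
      rw [Real.log_mul (by positivity) hl1pos'.ne', hlogL, Real.log_pow] at h1
      push_cast at h1
      linarith) hl1pos p11 hH (by linarith)
  have hF : 0 < (n * B).factorial * (n + n * a).choose n ^ B :=
    Nat.mul_pos (Nat.factorial_pos _) (Nat.pow_pos (Nat.choose_pos (by omega)))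
  refine Nat.le_of_mul_le_mul_left ?_ hF
  calc (n * B).factorial * (n + n * a).choose n ^ B * plethMult a b (k + 3) lam ≤
      (n * B).factorial * (n + n * a).choose n ^ B * ((a + b).choose a *
        ∏ i : Fin (k + 1), (a + lam i.succ.succ).choose (lam i.succ.succ)) :=
        Nat.mul_le_mul le_rfl hup
    _ = (a + b).choose a *
        (∏ i : Fin (k + 1), (a + lam i.succ.succ).choose (lam i.succ.succ)) *
        ((n * B).factorial * (n + n * a).choose n ^ B) := Nat.mul_comm _ _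
    _ ≤ _ := hnum
    _ ≤ _ := hlow

end Vale.Agent.P181.NR.H964
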